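import Vale.Agent.P300LQ.Arc
import Vale.Agent.P300LZ.Mod

/-!
# P300LQ: the polygon and the triangle
-/

open Set Filter Topology Function unitInterval
open scoped ComplexOrder Classical
open Vale.Agent.P272.K (Cm)
open Vale.Agent.P300LX Vale.Agent.P300LX.Dat Vale.Agent.P300LG
open Vale.Agent.P288.BQ (act aut vec)

noncomputable section

namespace Vale.Agent.P300LQ

/-- real points -/
def rp (x : ℝ × ℝ) : Cm 2 := ![x.1, x.2]

/-- the signed equations of the real lines -/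
def fs (y2 : ℝ) (s : Fin 7 → ℝ) (j : Fin 7) (x : ℝ × ℝ) : ℝ :=
  s j * (1 - ((bb y2 j).1 * x.1 + (bb y2 j).2 * x.2))

/-- `x` lies in the polygon, on the lines of `J` -/
def Good (y2 : ℝ) (s : Fin 7 → ℝ) (x : ℝ × ℝ) (J : Finset (Fin 7)) : Prop :=
  x.1 ^ 2 + x.2 ^ 2 < 139 / 100 ∧ ∀ j, if j ∈ J then fs y2 s j x = 0 else 0 < fs y2 s j x

theorem aut_one (z : Cm 2) : aut (p := 2) 1 z = 1 := by simp [aut, vec]

theorem act_one (z : Cm 2) : act (p := 2) 1 z = z := by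
  funext k
  simp [act, aut_one, vec]

variable {D : Dat} {A : Arr D} {y2 ρ : ℝ} {s : Fin 7 → ℝ}

theorem ex_pg (hP : Par A.ε y2 ρ) (Q : Clu A y2 ρ) (hs : ∀ j, s j ≠ 0) {y₀ : D.Xh}
    (h0 : π y₀ = rp (20 / 17, 0)) : ∃ P : Pg D, P.y0.1 = y₀ ∧ P.B ⊆ Bl ρ ∧
      (∀ x : ℝ × ℝ, x.1 ^ 2 + x.2 ^ 2 < 139 / 100 → rp x ∈ P.B) ∧
      ∀ j x, P.e j (rp x) = fs y2 s j x := by
  obtain ⟨M, mX, mS⟩ := P300LZ.mod D A y2 ρ hP Q Q.c0
  have hK : ∀ z, nq z ≤ ρ → z ∈ KK A.ε ρ (Q.m Q.c0) := fun z h =>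
    ⟨h.trans_lt hP.r2, by rwa [Q.m0, act_one]⟩
  have eS : ∀ b, M.S b = Finset.univ := fun b =>
    Finset.eq_univ_of_forall fun i => (mS b i).2 (Q.full _)
  let B : Set (Cm 2) := {z | nq z < ρ ∧ (z 0).im = 0 ∧ (z 1).im = 0}
  have mB : ∀ x : ℝ × ℝ, x.1 ^ 2 + x.2 ^ 2 < 139 / 100 → rp x ∈ B := fun x h =>
    ⟨by simpa [nq_eq, rp] using h.trans_le hP.r1, by simp [rp], by simp [rp]⟩
  have nB : ∀ z ∈ B, ∀ᶠ x in 𝓝 z, x ∈ KK A.ε ρ (Q.m Q.c0) := fun z hz =>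
    (nq_cont.continuousAt.eventually_lt continuousAt_const hz.1).mono fun x h => hK x h.le
  have cB : Convex ℝ B := fun x hx y hy a b ha hb e =>
    ⟨(P300LD.nq_cvx ha hb e x y).trans_lt (by
      have := convex_Iio ρ hx.1 hy.1 ha hb e
      exact this), by simp [hx.2.1, hy.2.1], by simp [hx.2.2, hy.2.2]⟩
  let L : Fin 7 → Af := fun j => (s j, -(s j : ℂ) • (((bb y2 j).1 : ℂ) • ContinuousLinearMap.proj 0 +
    ((bb y2 j).2 : ℂ) • ContinuousLinearMap.proj 1))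
  have eL : ∀ j z, P300LG.ev (L j) z = s j * lb (bb y2 j) z := fun j z => by
    simp [L, P300LG.ev, lb]
    ring
  have zL : ∀ j z, P300LG.ev (L j) z = 0 ↔ lb (bb y2 j) z = 0 := fun j z => by
    simp [eL, hs j]
  have nr : ∀ z ∈ B, ∀ b, lb b (rr z) ≠ 0 := fun z hz b e => by
    simpa [lb, rr, hz.2.1, hz.2.2] using congrArg Complex.re e
  let U : Cm 2 → ℂ := fun z => M.V z ^ 2 * (∏ j, lb (bb y2 j) (rr z)) * (∏ j, (s j : ℂ))⁻¹
  have s0 : ∏ j, (s j : ℂ) ≠ 0 := Finset.prod_ne_zero_iff.2 fun j _ => by simp [hs j]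
  have cU : ∀ z ∈ B, ContinuousAt U z := fun z hz =>
    (((M.cV.continuousAt (nB z hz)).pow 2).mul (continuous_finsetProd _ fun j _ => by
      simp only [lb, rr, Matrix.cons_val_zero, Matrix.cons_val_one]
      fun_prop).continuousAt).mul continuousAt_const
  have nU : ∀ z ∈ B, U z ≠ 0 := fun z hz => mul_ne_zero (mul_ne_zero (pow_ne_zero _
    (M.V0 z (hK z hz.1.le))) (Finset.prod_ne_zero_iff.2 fun j _ => nr z hz _)) (inv_ne_zero s0)
  have y0 : π y₀ ∈ B := h0 ▸ mB _ (by norm_num)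
  obtain ⟨u, u1, u2⟩ := ex_root cB ⟨_, y0⟩ (fun z hz => (cU z hz).continuousWithinAt) nU
  have fl : ∀ j : Fin 7, ∃ i, Q.ty (.inl i) = some (false, j) ∧
      A.Meets (.inl i) (KK A.ε ρ (Q.m Q.c0)) := fun j => by
    obtain ⟨L, h1, h2⟩ := Q.full (some (false, j))
    obtain ⟨i, rfl⟩ := P300LZ.ex_inl Q h1
    exact ⟨i, h1, h2⟩
  choose φ f1 f2 using fl
  have inj : Injective φ := fun i j e => by simpa [← e, f1 i] using f1 j
  have key : ∀ z ∈ B, ∀ i, P300LG.ev (A.fm (.inl i)) z = 0 ↔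
      ∃ j, P300LG.ev (L j) z = 0 ∧ φ j = i := fun z hz i => by
    have md : ∀ i, A.Meets (.inl i) (KK A.ε ρ (Q.m Q.c0)) →
        (P300LG.ev (A.fm (.inl i)) z = 0 ↔ mf y2 (Q.ty (.inl i)) z = 0) := fun i h => by
      obtain ⟨k, k0, k1⟩ := Q.mod _ _ h
      simp [k1 z (M.sub (hK z hz.1.le)), Q.m0, aut_one, act_one, k0]
    refine ⟨fun h => ?_, fun ⟨j, h, e⟩ => e ▸ (md _ (f2 j)).2 (f1 j ▸ (zL j z).1 h)⟩
    have m : A.Meets (.inl i) (KK A.ε ρ (Q.m Q.c0)) := ⟨z, hK z hz.1.le, h⟩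
    have k := (md i m).1 h
    rcases e : Q.ty (.inl i) with _ | ⟨_ | _, j⟩
    · simpa using (Q.ty_d _).1 e
    · rw [e] at k
      exact ⟨j, (zL j z).2 k, Sum.inl_injective (Q.inj _ _ _ (f2 j) m ((f1 j).trans e.symm))⟩
    · rw [e] at k
      exact absurd k (nr z hz _)
  refine ⟨⟨B, L, U, u, ⟨y₀, y0⟩, cB, fun z hz => M.sub (hK z hz.1.le), cU, nU, u1, u2,
    fun z hz => (nB z hz).mono fun x hx => ?_, fun z hz => (A.ver z).trans ⟨?_, ?_⟩,
    fun z hz h => ?_⟩, rfl, fun z hz => hz.1.le, mB, fun j x => ?_⟩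
  · simp only [M.h_eq x hx, eS, mX, Q.m0, act_one, Fintype.prod_bool, P300LG.sd, if_true,
      Bool.false_eq_true, if_false, U, eL, Finset.prod_mul_distrib]
    field_simp
  · rintro ⟨-, i, i', e, h, h'⟩
    obtain ⟨j, k, rfl⟩ := (key z hz i).1 h
    obtain ⟨j', k', rfl⟩ := (key z hz i').1 h'
    exact ⟨j, j', fun f => e (congrArg φ f), k, k'⟩
  · rintro ⟨j, j', e, h, h'⟩
    exact ⟨M.sub (hK z hz.1.le), _, _, inj.ne e, (key z hz _).2 ⟨j, h, rfl⟩,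
      (key z hz _).2 ⟨j', h', rfl⟩⟩
  · rw [← A.deg z h, show {i | P300LG.ev (A.fm (.inl i)) z = 0} =
      φ '' {j | P300LG.ev (L j) z = 0} from Set.ext (key z hz), ncard_image_of_injective _ inj,
      ← ncard_coe_finset]
    simp
  · simp [Pg.e, eL, fs, lb, rp]

section step

variable {P : Pg D} (hB : ∀ x : ℝ × ℝ, x.1 ^ 2 + x.2 ^ 2 < 139 / 100 → rp x ∈ P.B)
  (he : ∀ j x, P.e j (rp x) = fs y2 s j x) {V a b : ℝ × ℝ} {J : Finset (Fin 7)} {i j : Fin 7}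

include he in
theorem Good.iff (h : Good y2 s V J) : P.e i (rp V) = 0 ↔ i ∈ J := by
  have := h.2 i
  rw [he, Complex.ofReal_eq_zero]
  split_ifs at this with k
  exacts [iff_of_true this k, iff_of_false this.ne' k]

include hB he

theorem Good.R (h : Good y2 s V J) : rp V ∈ P.R :=
  ⟨hB _ h.1, fun i => by
    have := h.2 i
    rw [he, Complex.zero_le_real]
    split_ifs at this
    exacts [this.ge, this.le]⟩

theorem Good.R' (h : Good y2 s V {i}) : rp V ∈ P.R' :=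
  ⟨h.R hB he, fun k => by
    obtain ⟨m, m', e, k1, k2⟩ := (P.ver _ (hB _ h.1)).1 k
    exact e ((Finset.mem_singleton.1 ((h.iff he).1 k1)).trans
      (Finset.mem_singleton.1 ((h.iff he).1 k2)).symm)⟩

theorem Good.cn (h : Good y2 s V J) (ha : Good y2 s a {i}) (hb : Good y2 s b {j}) (e : i ≠ j)
    (hi : i ∈ J) (hj : j ∈ J) : P.Cn (rp V) (rp a) (rp b) i j :=
  ⟨h.R hB he, ha.R' hB he, hb.R' hB he, e, (h.iff he).2 hi, (ha.iff he).2 (by simp),
    (h.iff he).2 hj, (hb.iff he).2 (by simp)⟩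

theorem Good.step {p : D.S} (hp : p.1 ∈ P.R) {c : Cm 2} (hc : c ∈ P.R') (h : Good y2 s V {i, j})
    (ha : Good y2 s a {i}) (hb : Good y2 s b {j}) (e : i ≠ j) (hT : P.T p 1 (rp b) c) :
    P.T p 1 (rp a) c := by
  have k := h.cn hB he ha hb e (by simp) (by simp)
  exact Pg.T.trans hp k.ha k.hb hc ((Pg.node (V := ⟨_, (P.ver _ k.hV.1).2 ⟨i, j, e, k.iV, k.jV⟩⟩) k
    fun m hm => by simpa using (h.iff he).1 hm).move k.hV hp k.ha k.hb) hT

theorem Good.fin {p : D.S} (hp : p.1 = rp V) (h : Good y2 s V J) (ha : Good y2 s a {i})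
    (hb : Good y2 s b {j}) (e : i ≠ j) (hi : i ∈ J) (hj : j ∈ J) (hT : P.T p 1 (rp a) (rp b))
    {m n : Fin 3} {c d : ℝ} (hc : 0 < c) (hd : 0 < d) (em : dir m = (c : ℂ) • (rp a - rp V))
    (en : dir n = (d : ℂ) • (rp b - rp V)) {y₁ : D.Xh} (γ γ' : Path P.y0.1 y₁)
    (H : Arc p m n γ γ') : ∃ H : γ.Homotopy γ', ∀ x, π (H x) ∈ P.B := by
  refine Pg.arc (hp ▸ h.cn hB he ha hb e hi hj) hT γ γ' fun t => ?_
  obtain ⟨α, β, ω, h1, h2, h3, h4, h5⟩ := H t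
  refine ⟨α * c, β * d, ω, by positivity, by positivity, by simpa [hc.ne'] using h3,
    by simpa [hd.ne'] using h4, ?_⟩
  simpa only [em, en, smul_smul, hp, Complex.ofReal_mul] using h5

end step

theorem pol : POL := by
  intro D A y2 ρ hP Q p hp i j hij y₀ y₁ γ γ' H
  have y1 := hP.y1
  have y2' := hP.y2
  replace hp : p.1 = rp (20 / 17, 0) := hp.trans (by simp [P0, rp])
  have h0 : π y₀ = rp (20 / 17, 0) := by
    obtain ⟨_, _, _, -, -, -, -, h, -⟩ := H 0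
    rw [← hp, ← γ.source]
    exact h.π_iff.2 rfl
  have d1 : dir 1 = ((34 : ℝ) : ℂ) • (rp (25 / 34, -1 / 2) - rp (20 / 17, 0)) := by
    funext a
    fin_cases a <;> simp [dir, rp] <;> norm_num
  rcases hij with ⟨rfl, rfl⟩ | ⟨rfl, rfl⟩
  · obtain ⟨P, rfl, k, hB, he⟩ := ex_pg (s := fun _ => 1) hP Q (by simp) h0
    have g : Good y2 (fun _ => 1) (20 / 17, 0) {0, 1, 2, 3} ∧
        Good y2 (fun _ => 1) (12 / 17, 1 / 2) {0} ∧ Good y2 (fun _ => 1) (20 / 249, 290 / 249) {0, 6} ∧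
        Good y2 (fun _ => 1) (-1 / 2, 7 / 9) {6} ∧ Good y2 (fun _ => 1) (-23 / 21, 8 / 21) {6, 5} ∧
        Good y2 (fun _ => 1) (-1, 0) {5} ∧ Good y2 (fun _ => 1) (-32 / 41, -36 / 41) {5, 4} ∧
        Good y2 (fun _ => 1) (0, -20 / 21) {4} ∧ Good y2 (fun _ => 1) (40 / 129, -380 / 387) {4, 3} ∧
        Good y2 (fun _ => 1) (25 / 34, -1 / 2) {3} := by
      refine ⟨?_, ?_, ?_, ?_, ?_, ?_, ?_, ?_, ?_, ?_⟩ <;> refine ⟨by norm_num, fun m => ?_⟩ <;>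
        fin_cases m <;> simp [fs, bb] <;> linarith
    obtain ⟨g0, g1, g2, g3, g4, g5, g6, g7, g8, g9⟩ := g
    have r := hp ▸ g0.R hB he
    have r' := g9.R' hB he
    exact (g0.fin hB he hp g1 g9 (by decide) (by decide) (by decide)
      (g2.step hB he r r' g1 g3 (by decide) (g4.step hB he r r' g3 g5 (by decide)
        (g6.step hB he r r' g5 g7 (by decide) (g8.step hB he r r' g7 g9 (by decide)
          ((tr_self _ _).trans (tr_self _ _).symm))))) (c := 34) (by norm_num) (by norm_num)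
      (by funext a; fin_cases a <;> simp [dir, rp] <;> norm_num) d1 γ γ' H).imp fun _ h x => k (h x)
  · obtain ⟨P, rfl, k, hB, he⟩ := ex_pg (s := ![1, 1, 1, -1, 1, 1, 1]) hP Q
      (fun j => by fin_cases j <;> simp) h0
    have g : Good y2 ![1, 1, 1, -1, 1, 1, 1] (20 / 17, 0) {0, 1, 2, 3} ∧
        Good y2 ![1, 1, 1, -1, 1, 1, 1] (25 / 34, -1 / 2) {3} ∧
        Good y2 ![1, 1, 1, -1, 1, 1, 1] (40 / 129, -380 / 387) {3, 4} ∧
        Good y2 ![1, 1, 1, -1, 1, 1, 1] (1 / 2, -1) {4} ∧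
        Good y2 ![1, 1, 1, -1, 1, 1, 1] (67 / 113, -114 / 113) {4, 2} ∧
        Good y2 ![1, 1, 1, -1, 1, 1, 1] (181 / 204, -1 / 2) {2} := by
      refine ⟨?_, ?_, ?_, ?_, ?_, ?_⟩ <;> refine ⟨by norm_num, fun m => ?_⟩ <;>
        fin_cases m <;> simp [fs, bb] <;> linarith
    obtain ⟨g0, g1, g2, g3, g4, g5⟩ := g
    have r := hp ▸ g0.R hB he
    have r' := g5.R' hB he
    exact (g0.fin hB he hp g1 g5 (by decide) (by decide) (by decide)
      (g2.step hB he r r' g1 g3 (by decide) (g4.step hB he r r' g3 g5 (by decide)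
        ((tr_self _ _).trans (tr_self _ _).symm))) (d := 204) (by norm_num) (by norm_num) d1
      (by funext a; fin_cases a <;> simp [dir, rp] <;> norm_num) γ γ' H).imp fun _ h x => k (h x)

end Vale.Agent.P300LQ
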