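import Vale.Agent.P300LQ.Cor

/-!
# P300LQ: nodes, and the arcs over a vertex
-/

open Set Filter Topology Function unitInterval
open scoped ComplexOrder Classical
open Vale.Agent.P272.K (Cm)
open Vale.Agent.P300LX Vale.Agent.P300LX.Dat

noncomputable section

namespace Vale.Agent.P300LQ.Pg

variable {D : Dat} {P : Pg D} {V : D.S} {a b : Cm 2} {i j : Fin 7}

/-- a corner of the polygon -/
structure Cn (P : Pg D) (V a b : Cm 2) (i j : Fin 7) : Prop where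
  hV : V ∈ P.R
  ha : a ∈ P.R'
  hb : b ∈ P.R'
  ne : i ≠ j
  iV : P.e i V = 0
  ia : P.e i a = 0
  jV : P.e j V = 0
  jb : P.e j b = 0

theorem e_ne (hb : b ∈ P.R') (hij : i ≠ j) (h : P.e j b = 0) : P.e i b ≠ 0 := fun k =>
  hb.2 ((P.ver _ hb.1.1).2 ⟨i, j, hij, k, h⟩)

theorem node (h : P.Cn V a b i j) (hm : ∀ m, P.e m V = 0 → m = i ∨ m = j) : P.T V 1 a b := by
  refine T.level h.hV h.ha h.hb h.iV h.ia h.jV h.jb (left_mem_Icc.2 zero_le_one)
    (right_mem_Icc.2 zero_le_one) ?_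
  let v : ℂ → ℝ → Cm 2 := fun c s => (1 - s : ℂ) • (a - V) + (c * s) • (b - V)
  have v1 : ∀ s, v 1 s = sg a b s - V := fun s => by
    simp only [v, sg, ← Complex.coe_smul]
    module
  have li : ∀ c s, (P.L i).2 (v c s) = c * s * P.e i b := fun c s => by
    simp only [v, map_add, map_smul, L_sub, h.iV, h.ia, smul_eq_mul, sub_zero, mul_zero, zero_add]
  have lj : ∀ c s, (P.L j).2 (v c s) = (1 - s) * P.e j a := fun c s => by
    simp only [v, map_add, map_smul, L_sub, h.jV, h.jb, smul_eq_mul, sub_zero, mul_zero, add_zero]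
  have ne : ∀ c s, c ≠ 0 → v c s ≠ 0 := fun c s hc e => by
    have k1 := li c s
    have k2 := lj c s
    rw [e, map_zero, eq_comm, mul_eq_zero] at k1 k2
    have k3 := (mul_eq_zero.1 (k1.resolve_right (e_ne h.hb h.ne h.jb))).resolve_left hc
    simpa [k3] using k2.resolve_right (e_ne h.ha h.ne.symm h.ia)
  have vB : ∀ x, bd V.1 (0, x) ∈ P.B := fun x => (bd_zero V.1 x).symm ▸ h.hV.1
  have mem : ∀ c : ℂ, c ≠ 0 → ∀ s ∈ Icc (0 : ℝ) 1,
      ((0, v (c ^ 2) s), c * P.om V (0, sg a b s)) ∈ D.Dom V := fun c hc s hs => by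
    refine ⟨⟨ne _ _ (pow_ne_zero _ hc), P.sub (vB _), ?_⟩, fun _ => bd_zero _ _⟩
    have k : ∀ m, P.tm V (0, v (c ^ 2) s) m = (if m = i then c ^ 2 else 1) * P.tm V (0, v 1 s) m :=
      fun m => by
        unfold tm
        by_cases k : P.e m V = 0
        · rcases hm m k with rfl | rfl
          · simp only [k, if_true, li]
            ring
          · simp only [k, if_true, lj, if_neg h.ne.symm, one_mul]
        · rw [if_neg k, if_neg k, if_neg fun e : m = i => k (e ▸ h.iV), one_mul, bd_zero, bd_zero]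
    rw [mul_pow, om_sq h.hV (q := (0, sg a b s))
      ⟨left_mem_Icc.2 zero_le_one, cvx_R'.add_smul_sub_mem h.ha h.hb hs⟩, ← v1, Complex.ofReal_zero,
      hb_eq h.hV.1 (ne _ _ one_ne_zero) (vB _), hb_eq h.hV.1 (ne _ _ (pow_ne_zero _ hc)) (vB _),
      Finset.prod_congr rfl fun m _ => k m, Finset.prod_mul_distrib, Finset.prod_ite_eq',
      if_pos (Finset.mem_univ _), bd_zero, bd_zero, mul_left_comm]
  let c : ℝ → ℂ := fun u => Complex.exp (u * (Real.pi * Complex.I))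
  have key := ev_homotopy (x₀ := P.y0) (x := P.ptT V ((0, a - V), 0))
    (y := P.ptT V ((0, v (1 ^ 2) 1), 0))
    (H := fun q => P.ptT V ((0, v (c q.2 ^ 2) q.1), c q.2 * P.om V (0, sg a b q.1)))
    (cont_ptT.comp (ContinuousOn.prodMk (by fun_prop) (ContinuousOn.mul (by fun_prop)
      ((cont_om h.hV).comp (f := fun q : ℝ × ℝ => (0, sg a b q.1)) (by unfold sg; fun_prop) fun q hq =>
        ⟨left_mem_Icc.2 zero_le_one, cvx_R'.add_smul_sub_mem h.ha h.hb hq.1⟩)))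
      fun q hq => ⟨mem _ (Complex.exp_ne_zero _) _ hq.1, vB _⟩)
    (fun u _ => by simp [v, om_zero h.iV h.ia]) fun u _ => by
      have k1 := mem 1 one_ne_zero 1 (right_mem_Icc.2 zero_le_one)
      have k2 := mem (c u) (Complex.exp_ne_zero _) 1 (right_mem_Icc.2 zero_le_one)
      simp only [sg_one, om_zero h.jV h.jb, mul_zero] at k1 k2 ⊢
      refine ptT_eq ?_ k2
      have := (rep_ptT ⟨k1, vB _⟩).scl (pow_ne_zero 2 (Complex.exp_ne_zero (u * (Real.pi * Complex.I))))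
      simpa [scl, v, c] using this
  refine (ev_congr fun s _ => ?_).trans (key.trans (ev_congr fun s _ => ?_))
  · simp [sg_pair, F, cd, c, v1]
  · simp [sg_pair, F, cd, c, v1]

theorem arc (h : P.Cn V a b i j) (hT : P.T V 1 a b) {y₁ : D.Xh} (γ γ' : Path P.y0.1 y₁)
    (H : ∀ s : I, ∃ (α β : ℝ) (ω : ℂ), 0 ≤ α ∧ 0 ≤ β ∧ (α = 0 ↔ s = 1) ∧ (β = 0 ↔ s = 0) ∧
      Rep V (γ s) ((0, (α : ℂ) • (a - V) + (β : ℂ) • (b - V)), ω) ∧
      Rep V (γ' s) ((0, (α : ℂ) • (a - V) + (β : ℂ) • (b - V)), -ω)) :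
    ∃ H : γ.Homotopy γ', ∀ x, π (H x) ∈ P.B := by
  have m0 : (0 : ℝ) ∈ Icc (0 : ℝ) 1 := left_mem_Icc.2 zero_le_one
  replace hT := T.level h.hV h.ha h.hb h.iV h.ia h.jV h.jb (right_mem_Icc.2 zero_le_one) m0 hT
  have ib := e_ne h.hb h.ne h.jb
  have ja := e_ne h.ha h.ne.symm h.ia
  have H1 : ∀ s : I, ∃ θ ∈ Icc (0 : ℝ) 1, (θ = 0 ↔ s = 0) ∧ (θ = 1 ↔ s = 1) ∧ ∃ ω,
      Rep V (γ s) ((0, sg a b θ - V), ω) ∧ Rep V (γ' s) ((0, sg a b θ - V), -ω) := fun s => by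
    obtain ⟨α, β, ω, h1, h2, h3, h4, h5, h6⟩ := H s
    have k : 0 < α + β := (add_nonneg h1 h2).lt_of_ne' fun e => by
      rw [add_eq_zero_iff_of_nonneg h1 h2, h3, h4] at e
      exact zero_ne_one (e.2.symm.trans e.1)
    have k' : (α + β : ℂ) ≠ 0 := by exact_mod_cast k.ne'
    have e : (α + β : ℂ)⁻¹ • ((α : ℂ) • (a - V) + (β : ℂ) • (b - V)) =
        sg a b (β / (α + β)) - V := by
      rw [inv_smul_eq_iff₀ k', sg, ← Complex.coe_smul, add_sub_right_comm, smul_add, smul_smul,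
        Complex.ofReal_div, Complex.ofReal_add, mul_div_cancel₀ _ k']
      module
    have k5 := h5.scl (inv_ne_zero k')
    have k6 := h6.scl (inv_ne_zero k')
    simp only [scl, zero_div, e, mul_neg] at k5 k6
    refine ⟨β / (α + β), ⟨div_nonneg h2 k.le, (div_le_one k).2 (le_add_of_nonneg_left h1)⟩, ?_, ?_,
      _, k5, k6⟩
    · rw [div_eq_zero_iff, or_iff_left k.ne', h4]
    · rw [div_eq_one_iff_eq k.ne', right_eq_add, h3]
  choose θ s1 s2 s3 ω r1 r2 using H1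
  let l : Lf := (P.e i b)⁻¹ • (P.L i).2 + (P.e j a)⁻¹ • (P.L j).2
  have l1 : ∀ s, l (sg a b s - V) = 1 := fun s => by
    simp only [l, _root_.add_apply, _root_.smul_apply, L_sub, e_sg, h.iV,
      h.ia, h.jV, h.jb, smul_eq_mul]
    push_cast
    field_simp
    ring
  have pV : ∀ s, π (γ s) = V ∧ π (γ' s) = V := fun s => ⟨(r1 s).π_iff.2 rfl, (r2 s).π_iff.2 rfl⟩
  let C : ℝ → ℝ × Cm 2 := fun s => (0, V + (crd V l (γ.extend s)).1.2)
  have c1 : ∀ s : I, C s = (0, sg a b (θ s)) := fun s => by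
    simp only [C, Path.extend_extends', (r1 s).crd_eq (l1 _ ▸ one_ne_zero), l1, inv_one, scl_one,
      add_sub_cancel]
  have mK : ∀ s : I, (0, sg a b (θ s)) ∈ P.K := fun s =>
    ⟨m0, cvx_R'.add_smul_sub_mem h.ha h.hb (s1 s)⟩
  have cv : Cv P.K C := ⟨fun s hs => (continuousAt_const.prodMk (continuousAt_const.add
    (ContinuousAt.comp (g := crd V l) (contAt_crd (by
      rw [show γ.extend s = γ ⟨s, hs⟩ from γ.extend_extends' ⟨s, hs⟩]
      exact (r1 _).mem_O.2 ⟨fun _ => (pV _).1, l1 _ ▸ one_ne_zero⟩))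
      γ.continuous_extend.continuousAt).fst.snd)).continuousWithinAt,
    fun s hs => (c1 ⟨s, hs⟩).symm ▸ mK _⟩
  let Γ : Path P.y0 ⟨y₁, γ.target ▸ (pV 1).1 ▸ h.hV.1⟩ := ⟨⟨fun s => ⟨γ s, (pV s).1 ▸ h.hV.1⟩,
    γ.continuous.subtype_mk _⟩, Subtype.ext γ.source, Subtype.ext γ.target⟩
  let Γ' : Path P.y0 ⟨y₁, γ.target ▸ (pV 1).1 ▸ h.hV.1⟩ := ⟨⟨fun s => ⟨γ' s, (pV s).2 ▸ h.hV.1⟩,
    γ'.continuous.subtype_mk _⟩, Subtype.ext γ'.source, Subtype.ext γ'.target⟩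
  have cF : ∀ c : ℂ, c ^ 2 = 1 → Continuous fun s : I => P.F V c (C s) := fun c hc =>
    ((cont_F h.hV hc).comp cv.ct cv.mem).domRestrict
  let A : ℂ → ℂ → Set I := fun c c' => {s | Γ s = P.F V c (C s)} ∩ {s | Γ' s = P.F V c' (C s)}
  have cA : ∀ c c' : ℂ, c ^ 2 = 1 → c' ^ 2 = 1 → IsClosed (A c c') := fun c c' hc hc' =>
    (isClosed_eq Γ.continuous (cF c hc)).inter (isClosed_eq Γ'.continuous (cF c' hc'))
  have fin : ∀ c c' : ℂ, c ^ 2 = 1 → c' ^ 2 = 1 → Ioo 0 1 ⊆ A c c' →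
      evp P.y0 Γ = tr P.y0 (P.F V c) (0, a) (0, b) ∧
      evp P.y0 Γ' = tr P.y0 (P.F V c') (0, a) (0, b) := fun c c' hc hc' k => by
    have k1 := closure_minimal k (cA c c' hc hc')
    rw [closure_Ioo zero_ne_one] at k1
    have e0 : C 0 = (0, a) := (c1 0).trans (by rw [(s2 0).2 rfl, sg_zero])
    have e1 : C 1 = (0, b) := (c1 1).trans (by rw [(s3 1).2 rfl, sg_one])
    rw [← e0, ← e1, ← ev_cv cvx_K (cont_F h.hV hc) cv, ← ev_cv cvx_K (cont_F h.hV hc') cv]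
    exact ⟨(ev_eq ((cont_F h.hV hc).comp cv.ct cv.mem) Γ fun t => (k1 ⟨t.2.1, t.2.2⟩).1).symm,
      (ev_eq ((cont_F h.hV hc').comp cv.ct cv.mem) Γ' fun t => (k1 ⟨t.2.1, t.2.2⟩).2).symm⟩
  have fe : ∀ (s : I) (c : ℂ) (y : P.Y), c ^ 2 = 1 →
      Rep V y.1 ((0, sg a b (θ s) - V), c * P.om V (0, sg a b (θ s))) → y = P.F V c (C s) :=
    fun s c y hc k => by
      rw [c1]
      exact (ptT_eq k (cd_mem h.hV hc (mK s)).1).symm
  have cov : Ioo 0 1 ⊆ A 1 (-1) ∪ A (-1) 1 := fun s _ => by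
    have k := (r1 s).cx.2.2.trans (om_sq h.hV (mK s)).symm
    have t1 : Rep V (Γ s).1 _ := r1 s
    have t2 : Rep V (Γ' s).1 _ := r2 s
    rcases sq_eq_sq_iff_eq_or_eq_neg.1 k with k | k <;> rw [show ω s = _ from k] at t1 t2
    · exact .inl ⟨fe s 1 _ (one_pow 2) (by simpa using t1), fe s _ _ neg_one_sq (by simpa using t2)⟩
    · exact .inr ⟨fe s _ _ neg_one_sq (by simpa using t1), fe s 1 _ (one_pow 2) (by simpa using t2)⟩
  have dis : Ioo 0 1 ∩ (A 1 (-1) ∩ A (-1) 1) = ∅ := eq_empty_of_forall_notMem fun s hs => by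
    have k1 := rep_ptT (cd_mem h.hV (one_pow 2) (mK s))
    have k2 := rep_ptT (cd_mem h.hV neg_one_sq (mK s))
    have e : P.F V 1 (C s) = P.F V (-1) (C s) := hs.2.1.1.symm.trans hs.2.2.1
    rw [c1] at e
    obtain ⟨c, -, k⟩ := k1.uniq ((show P.ptT V _ = P.ptT V _ from e) ▸ k2)
    have k3 : c = 1 := smul_left_injective ℂ (ne_V (V := V) (mK s).2)
      ((congrArg (·.1.2) k).symm.trans (one_smul _ _).symm)
    rw [k3, scl_one] at k
    have k4 : P.om V (0, sg a b (θ s)) = 0 := by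
      have : -1 * P.om V (0, sg a b (θ s)) = 1 * P.om V (0, sg a b (θ s)) := congrArg (·.2) k
      linear_combination (-1 / 2 : ℂ) * this
    have k5 := om_sq h.hV (mK s)
    rw [k4, hb_eq h.hV.1 (ne_V (mK s).2) (by simpa [bd] using h.hV.1), zero_pow two_ne_zero, eq_comm,
      mul_eq_zero, Finset.prod_eq_zero_iff] at k5
    obtain ⟨m, -, k6⟩ := k5.resolve_left (P.nU _ (by simpa [bd] using h.hV.1))
    rw [tm_eq, sg_zero] at k6
    split_ifs at k6 with k7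
    · have k8 := e_sg_zero h.ha.1 h.hb.1 (s1 s) k6
      have k9 := k8.1 (mt (s3 s).1 hs.1.2.ne)
      have k10 := k8.2 (mt (s2 s).1 hs.1.1.ne')
      by_cases e : m = i
      · exact ib (e ▸ k10)
      · exact e_ne h.ha e h.ia k9
    · exact k7 k6
  have key : evp P.y0 Γ = evp P.y0 Γ' := by
    rcases isPreconnected_iff_subset_of_disjoint_closed.1 isPreconnected_Ioo _ _
      (cA _ _ (one_pow 2) neg_one_sq) (cA _ _ neg_one_sq (one_pow 2)) cov dis with k | k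
    · have := fin _ _ (one_pow 2) neg_one_sq k
      exact this.1.trans (Eq.trans hT this.2.symm)
    · have := fin _ _ neg_one_sq (one_pow 2) k
      exact this.1.trans (Eq.trans (Eq.symm hT) this.2.symm)
  obtain ⟨G⟩ := evp_inj key
  exact ⟨G.map ⟨Subtype.val, continuous_subtype_val⟩, fun x => (G x).2⟩

end Vale.Agent.P300LQ.Pg
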