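import Vale.Agent.P300LQ.Ev
import Vale.Agent.P300LG.Defs
import Vale.Agent.P300LX.Top
import Mathlib.Analysis.Complex.BranchLogRoot

/-!
# P300LQ: the two sheets over a real polygon, blown up in a vertex
-/

open Set Filter Topology Function unitInterval
open scoped ComplexOrder Classical
open Vale.Agent.P272.K (Cm)
open Vale.Agent.P300LX Vale.Agent.P300LX.Dat
open Vale.Agent.P300LG (Af)

noncomputable section

namespace Vale.Agent.P300LQ

theorem ex_root {B : Set (Cm 2)} (hB : Convex ℝ B) (ne : B.Nonempty) {U : Cm 2 → ℂ}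
    (hU : ContinuousOn U B) (h0 : ∀ z ∈ B, U z ≠ 0) :
    ∃ u : Cm 2 → ℂ, ContinuousOn u B ∧ ∀ z ∈ B, u z ^ 2 = U z := by
  have := hB.locallyPathConnectedSpace
  have := hB.contractibleSpace ne
  have k : IsSimplyConnected (univ : Set B) :=
    (Homeomorph.Set.univ B).toHomotopyEquiv.simplyConnectedSpace
  obtain ⟨f, h1, h2⟩ := Complex.exists_continuousOn_pow_eq k isOpen_univ
    hU.domRestrict.continuousOn (fun ⟨z, _, e⟩ => h0 z z.2 e) two_ne_zero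
  refine ⟨fun z => if h : z ∈ B then f ⟨z, h⟩ else 0, continuousOn_iff_continuous_domRestrict.2
    ((continuousOn_univ.1 h1).congr fun z => by simp), fun z hz => ?_⟩
  simp only [dif_pos hz]
  exact h2 _

theorem cvx_of {E : Type} [AddCommGroup E] [Module ℝ E] {K : Set E}
    (h : ∀ x ∈ K, ∀ y ∈ K, ∀ t ∈ Icc (0 : ℝ) 1, sg x y t ∈ K) : Convex ℝ K := by
  intro x hx y hy a b ha hb e
  have := h x hx y hy b ⟨hb, by linarith⟩
  rwa [sg, show x + b • (y - x) = a • x + b • y by rw [eq_sub_of_add_eq e]; module] at this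

/-- the root of a non negative number -/
def rt (z : ℂ) : ℂ := (√z.re : ℝ)

theorem rt_sq {z : ℂ} (h : 0 ≤ z) : rt z ^ 2 = z := by
  rw [rt, ← Complex.ofReal_pow, Real.sq_sqrt (Complex.nonneg_iff.1 h).1]
  exact (Complex.eq_re_of_ofReal_le (r := 0) h).symm

@[fun_prop] theorem rt_cont : Continuous rt := by
  unfold rt
  fun_prop

/-- On `B` the function `h` is a unit times a product of affine forms. -/
structure Pg (D : Dat) where
  B : Set (Cm 2)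
  L : Fin 7 → Af
  U : Cm 2 → ℂ
  u : Cm 2 → ℂ
  y0 : {y : D.Xh // π y ∈ B}
  cvx : Convex ℝ B
  sub : B ⊆ D.Om
  cU : ∀ z ∈ B, ContinuousAt U z
  nU : ∀ z ∈ B, U z ≠ 0
  cu : ContinuousOn u B
  sq : ∀ z ∈ B, u z ^ 2 = U z
  fac : ∀ z ∈ B, ∀ᶠ x in 𝓝 z, D.h x = U x * ∏ j, P300LG.ev (L j) x
  ver : ∀ z ∈ B, z ∈ D.S ↔ ∃ i j, i ≠ j ∧ P300LG.ev (L i) z = 0 ∧ P300LG.ev (L j) z = 0
  deg : ∀ z ∈ B, z ∈ D.S → (Finset.univ.filter fun j => P300LG.ev (L j) z = 0).card = 2 * D.k z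

namespace Pg

variable {D : Dat} (P : Pg D)

/-- the forms -/
abbrev e (j : Fin 7) (z : Cm 2) : ℂ := P300LG.ev (P.L j) z

/-- the polygon -/
def R : Set (Cm 2) := {z | z ∈ P.B ∧ ∀ j, 0 ≤ P.e j z}

/-- the polygon without its vertices -/
def R' : Set (Cm 2) := {z | z ∈ P.R ∧ z ∉ D.S}

/-- the part of the double cover over `B` -/
abbrev Y : Type := {y : D.Xh // π y ∈ P.B}

/-- the factors of `hb` -/
def tm (V : Cm 2) (q : ℂ × Cm 2) (j : Fin 7) : ℂ :=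
  if P.e j V = 0 then (P.L j).2 q.2 else P.e j (bd V q)

/-- the point with the coordinates `q` -/
def ptT (V : D.S) (q : E3) : P.Y :=
  if h : q ∈ D.Dom V ∧ bd V q.1 ∈ P.B then ⟨pt V ⟨q, h.1⟩, h.2⟩ else P.y0

/-- the root of `hb` -/
def om (V : Cm 2) (q : ℝ × Cm 2) : ℂ := P.u (sg V q.2 q.1) * rt (∏ j, P.tm V (q.1, q.2 - V) j)

/-- the coordinates of a sheet -/
def cd (V : Cm 2) (c : ℂ) (q : ℝ × Cm 2) : E3 := ((q.1, q.2 - V), c * P.om V q)

/-- the two sheets -/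
def F (V : D.S) (c : ℂ) (q : ℝ × Cm 2) : P.Y := P.ptT V (P.cd V c q)

/-- the domain of the sheets -/
def K : Set (ℝ × Cm 2) := Icc 0 1 ×ˢ P.R'

/-- the two sheets give the same class of paths -/
def T (V : D.S) (t : ℝ) (a b : Cm 2) : Prop := Sm P.y0 (P.F V 1) (P.F V (-1)) (t, a) (t, b)

variable {P} {V V' : D.S} {x y a b : Cm 2} {t : ℝ} {i j : Fin 7} {c : ℂ}

theorem e_bd (V : Cm 2) (q : ℂ × Cm 2) : P.e j (bd V q) = P.e j V + q.1 * (P.L j).2 q.2 := by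
  simp only [e, P300LG.ev, bd, map_add, map_smul, smul_eq_mul, add_assoc]

theorem L_sub (x y : Cm 2) : (P.L j).2 (x - y) = P.e j x - P.e j y := by
  simp only [e, P300LG.ev, map_sub, add_sub_add_left_eq_sub]

theorem bd_sg (x y : Cm 2) (t : ℝ) : bd x (t, y - x) = sg x y t := by
  simp only [bd, sg, Complex.coe_smul]

theorem e_sg (x y : Cm 2) (t : ℝ) : P.e j (sg x y t) = (1 - t : ℝ) * P.e j x + t * P.e j y := by
  rw [← bd_sg, e_bd, L_sub]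
  push_cast
  ring

theorem sg_R (hx : x ∈ P.R) (hy : y ∈ P.R) (ht : t ∈ Icc (0 : ℝ) 1) : sg x y t ∈ P.R :=
  ⟨P.cvx.add_smul_sub_mem hx.1 hy.1 ht, fun j => by
    rw [e_sg]
    exact add_nonneg (mul_nonneg (Complex.zero_le_real.2 (sub_nonneg.2 ht.2)) (hx.2 j))
      (mul_nonneg (Complex.zero_le_real.2 ht.1) (hy.2 j))⟩

theorem e_sg_zero (hx : x ∈ P.R) (hy : y ∈ P.R) (ht : t ∈ Icc (0 : ℝ) 1)
    (h : P.e j (sg x y t) = 0) : (t ≠ 1 → P.e j x = 0) ∧ (t ≠ 0 → P.e j y = 0) := by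
  rw [e_sg, add_eq_zero_iff_of_nonneg
    (mul_nonneg (Complex.zero_le_real.2 (sub_nonneg.2 ht.2)) (hx.2 j))
    (mul_nonneg (Complex.zero_le_real.2 ht.1) (hy.2 j))] at h
  exact ⟨fun k => (mul_eq_zero.1 h.1).resolve_left
      (Complex.ofReal_ne_zero.2 (sub_ne_zero.2 k.symm)),
    fun k => (mul_eq_zero.1 h.2).resolve_left (Complex.ofReal_ne_zero.2 k)⟩

theorem sg_S (hx : x ∈ P.R) (hy : y ∈ P.R') (ht : t ∈ Icc (0 : ℝ) 1) (h : sg x y t ∈ D.S) :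
    t = 0 := by
  by_contra k
  obtain ⟨i, j, h1, h2, h3⟩ := (P.ver _ (sg_R hx hy.1 ht).1).1 h
  exact hy.2 ((P.ver _ hy.1.1).2
    ⟨i, j, h1, (e_sg_zero hx hy.1 ht h2).2 k, (e_sg_zero hx hy.1 ht h3).2 k⟩)

theorem cvx_R' : Convex ℝ P.R' :=
  cvx_of fun x hx y hy t ht => ⟨sg_R hx.1 hy.1 ht, fun h => hx.2 (by
    rwa [sg_S hx.1 hy ht h, sg_zero] at h)⟩

theorem cvx_K : Convex ℝ P.K := (convex_Icc _ _).prod cvx_R'

theorem cont_tm (V : Cm 2) (j : Fin 7) : Continuous fun q => P.tm V q j := by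
  unfold tm e P300LG.ev
  split_ifs <;> fun_prop

theorem hb_eq (hV : V.1 ∈ P.B) {q : ℂ × Cm 2} (h : q.2 ≠ 0) (hq : bd V q ∈ P.B) :
    D.hb V q = P.U (bd V q) * ∏ j, P.tm V q j := by
  have key : ∀ t : ℂ, t ≠ 0 → bd V (t, q.2) ∈ D.Om →
      D.h (bd V (t, q.2)) = P.U (bd V (t, q.2)) * ∏ j, P.e j (bd V (t, q.2)) →
      D.hb V (t, q.2) = P.U (bd V (t, q.2)) * ∏ j, P.tm V (t, q.2) j := fun t ht k1 k2 => by
    have k3 : ∀ j, P.e j (bd V (t, q.2)) = (if P.e j V = 0 then t else 1) * P.tm V (t, q.2) j :=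
      fun j => by
        unfold tm
        split_ifs with k
        · rw [e_bd, k, zero_add]
        · rw [one_mul]
    rw [D.hb_eq V V.2 (t, q.2) h k1, Finset.prod_congr rfl fun j _ => k3 j, Finset.prod_mul_distrib,
      ← Finset.prod_filter, Finset.prod_const, P.deg V hV V.2, mul_left_comm] at k2
    exact mul_left_cancel₀ (pow_ne_zero _ ht) k2
  by_cases ht : q.1 = 0
  · obtain ⟨t, v⟩ := q
    obtain rfl : t = 0 := ht
    have k : Tendsto (fun t : ℂ => bd V (t, v)) (𝓝 0) (𝓝 V) :=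
      Continuous.tendsto' (by fun_prop) _ _ (bd_zero _ _)
    refine eq_at_zero (f := fun t => D.hb V (t, v))
      (g := fun t => P.U (bd V (t, v)) * ∏ j, P.tm V (t, v) j) ?_ ?_ ?_
    · exact ContinuousAt.comp (g := D.hb V) (f := fun t => (t, v))
        (D.hb_an V V.2 _ h (P.sub hq)).continuousAt (by fun_prop)
    · exact (ContinuousAt.comp (g := P.U) (f := fun t => bd V (t, v)) (P.cU _ hq)
        (by fun_prop)).mul (continuous_finsetProd _ fun j _ =>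
          (cont_tm V j).comp (by fun_prop)).continuousAt
    · filter_upwards [k.eventually (D.op.mem_nhds (P.sub hV)), k.eventually (P.fac V hV)]
        with t k1 k2 ht using key t ht k1 k2
  · exact key _ ht (P.sub hq) (P.fac _ hq).self_of_nhds

theorem rep_ptT {q : E3} (h : q ∈ D.Dom V ∧ bd V q.1 ∈ P.B) : Rep V (P.ptT V q).1 q := by
  rw [ptT, dif_pos h]
  exact rep_pt ⟨q, h.1⟩

theorem cont_ptT : ContinuousOn (P.ptT V) {q | q ∈ D.Dom V ∧ bd V q.1 ∈ P.B} :=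
  continuousOn_iff_continuous_domRestrict.2 (((cont_pt.comp (continuous_subtype_val.subtype_mk
    fun q => q.2.1)).subtype_mk fun q => q.2.2).congr fun q =>
      Subtype.ext ((rep_ptT q.2).pt_eq q.2.1))

theorem ptT_eq {q : E3} {y : P.Y} (h : Rep V y.1 q) (hq : q ∈ D.Dom V) : P.ptT V q = y :=
  Subtype.ext ((rep_ptT ⟨hq, h.π ▸ y.2⟩).eq h (by
    rw [(rep_ptT ⟨hq, h.π ▸ y.2⟩).π]; exact hq.2))

theorem tm_eq (V x : Cm 2) (t : ℝ) :
    P.tm V (t, x - V) j = if P.e j V = 0 then P.e j x else P.e j (sg V x t) := by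
  unfold tm
  split_ifs with k
  · rw [L_sub, k, sub_zero]
  · rw [bd_sg]

theorem ne_V (hx : x ∈ P.R') : x - V ≠ 0 := sub_ne_zero.2 fun e => hx.2 (e ▸ V.2)

theorem om_sq (hV : V.1 ∈ P.R) {q : ℝ × Cm 2} (h : q ∈ P.K) :
    P.om V q ^ 2 = D.hb V (q.1, q.2 - V) := by
  have k := sg_R hV h.2.1 h.1
  rw [hb_eq hV.1 (ne_V h.2) (bd_sg V.1 q.2 q.1 ▸ k.1), om, mul_pow, P.sq _ k.1, bd_sg, rt_sq]
  refine Finset.prod_nonneg fun j _ => ?_
  rw [tm_eq]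
  split_ifs
  exacts [h.2.1.2 j, k.2 j]

theorem cd_mem (hV : V.1 ∈ P.R) (hc : c ^ 2 = 1) {q : ℝ × Cm 2} (h : q ∈ P.K) :
    P.cd V c q ∈ D.Dom V ∧ bd V (P.cd V c q).1 ∈ P.B := by
  have k := sg_R hV h.2.1 h.1
  have e : bd V (P.cd V c q).1 = sg V.1 q.2 q.1 := bd_sg _ _ _
  refine ⟨⟨⟨ne_V h.2, e ▸ P.sub k.1, ?_⟩, fun k' => ?_⟩, e ▸ k.1⟩
  · rw [cd, mul_pow, hc, one_mul, om_sq hV h]
  · rw [e] at k' ⊢
    rw [sg_S hV h.2 h.1 k', sg_zero]

theorem cont_om (hV : V.1 ∈ P.R) : ContinuousOn (P.om V) P.K :=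
  (P.cu.comp (f := fun q : ℝ × Cm 2 => sg V.1 q.2 q.1) (by unfold sg; fun_prop)
    fun q h => (sg_R hV h.2.1 h.1).1).mul (rt_cont.comp (continuous_finsetProd _ fun j _ =>
      (cont_tm V j).comp (by fun_prop))).continuousOn

theorem cont_F (hV : V.1 ∈ P.R) (hc : c ^ 2 = 1) : ContinuousOn (P.F V c) P.K :=
  cont_ptT.comp (ContinuousOn.prodMk (by fun_prop) (continuousOn_const.mul (cont_om hV)))
    fun _ h => cd_mem hV hc h

theorem om_zero (h : P.e i V = 0) (h' : P.e i a = 0) (t : ℝ) : P.om V (t, a) = 0 := by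
  rw [om, Finset.prod_eq_zero (Finset.mem_univ i) (by rw [tm_eq, if_pos h, h']), rt]
  simp

theorem F_side (h : P.e i V = 0) (h' : P.e i a = 0) (t : ℝ) (c c' : ℂ) :
    P.F V c (t, a) = P.F V c' (t, a) := by
  simp only [F, cd, om_zero h h', mul_zero]

theorem F_one (hV : V.1 ∈ P.R) (hV' : V'.1 ∈ P.R) (hc : c ^ 2 = 1) (hx : x ∈ P.R') :
    P.F V c (1, x) = P.F V' c (1, x) := by
  have k : ∀ V : D.S, V.1 ∈ P.R → π (P.F V c (1, x)).1 = x ∧
      w (P.F V c (1, x)).1 = c * (P.u x * rt (∏ j, P.e j x)) := fun V hV => by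
    have k := rep_ptT (cd_mem hV hc (q := (1, x)) ⟨right_mem_Icc.2 zero_le_one, hx⟩)
    refine ⟨k.π.trans ((bd_sg _ _ _).trans sg_one), k.w'.trans ?_⟩
    simp only [cd, om, tm_eq, sg_one, ite_self]
    simp
  exact Subtype.ext (ext0 (by rw [(k V hV).1]; exact hx.2) ((k V hV).1.trans (k V' hV').1.symm)
    ((k V hV).2.trans (k V' hV').2.symm))

theorem sg_pair (t : ℝ) (a b : Cm 2) (s : ℝ) : sg (t, a) (t, b) s = (t, sg a b s) := by
  simp [sg]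

theorem T.move (hV : V.1 ∈ P.R) (hV' : V'.1 ∈ P.R) (ha : a ∈ P.R') (hb : b ∈ P.R')
    (h : P.T V 1 a b) : P.T V' 1 a b := by
  have k : ∀ c : ℂ, c ^ 2 = 1 → tr P.y0 (P.F V c) (1, a) (1, b) = tr P.y0 (P.F V' c) (1, a) (1, b) :=
    fun c hc => ev_congr fun s hs => by
      simp only [comp_apply, sg_pair]
      exact F_one hV hV' hc (cvx_R'.add_smul_sub_mem ha hb hs)
  exact (k 1 (one_pow 2)).symm.trans (Eq.trans h (k _ neg_one_sq))

theorem T.trans (hV : V.1 ∈ P.R) (ha : a ∈ P.R') (hb : b ∈ P.R') (hx : x ∈ P.R')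
    (h : P.T V 1 a b) (h' : P.T V 1 b x) : P.T V 1 a x :=
  have m : (1 : ℝ) ∈ Icc (0 : ℝ) 1 := right_mem_Icc.2 zero_le_one
  Sm.trans cvx_K (cont_F hV (one_pow 2)) (cont_F hV neg_one_sq) ⟨m, ha⟩ ⟨m, hb⟩ ⟨m, hx⟩ h h'

theorem T.level (hV : V.1 ∈ P.R) (ha : a ∈ P.R') (hb : b ∈ P.R') (hi : P.e i V = 0)
    (hi' : P.e i a = 0) (hj : P.e j V = 0) (hj' : P.e j b = 0) {s t : ℝ} (hs : s ∈ Icc (0 : ℝ) 1)
    (ht : t ∈ Icc (0 : ℝ) 1) (h : P.T V s a b) : P.T V t a b := by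
  have k : ∀ i a s t, P.e i V = 0 → P.e i a = 0 → Sm P.y0 (P.F V 1) (P.F V (-1)) (s, a) (t, a) :=
    fun i a s t h h' => sm_of fun r _ => by
      rw [show sg (s, a) (t, a) r = (sg s t r, a) by simp [sg]]
      exact F_side h h' _ _ _
  have c1 := cont_F hV (one_pow 2)
  have c2 := cont_F hV neg_one_sq
  exact Sm.trans cvx_K c1 c2 ⟨ht, ha⟩ ⟨hs, ha⟩ ⟨ht, hb⟩ (k i a t s hi hi')
    (Sm.trans cvx_K c1 c2 ⟨hs, ha⟩ ⟨hs, hb⟩ ⟨ht, hb⟩ h (k j b s t hj hj'))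

end Pg

end Vale.Agent.P300LQ
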