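import Mathlib.AlgebraicTopology.FundamentalGroupoid.SimplyConnected
import Mathlib.Analysis.Convex.Contractible

/-!
# P300LQ: classes of paths as elements of one group
-/

open Set Filter Topology CategoryTheory unitInterval

noncomputable section

namespace Vale.Agent.P300LQ

variable {X : Type} [TopologicalSpace X] (x₀ : X) {x y z : X}

/-- the group -/
abbrev Gp : Type := End (⟨x₀⟩ : FundamentalGroupoid X)

/-- the arrow of a path -/
abbrev ar (p : Path x y) : (⟨x⟩ : FundamentalGroupoid X) ⟶ ⟨y⟩ := Path.Homotopic.Quotient.mk p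

open Classical in
/-- the class of a path, closed up by chosen paths to the base point -/
def evp (p : Path x y) : Gp x₀ :=
  if h : Joined x₀ x then ar h.somePath ≫ ar p ≫ inv (ar (h.trans ⟨p⟩).somePath) else 1

open Classical in
/-- the class of a curve on `[0, 1]` -/
def ev (γ : ℝ → X) : Gp x₀ :=
  if h : ContinuousOn γ (Icc 0 1) then evp x₀ (Path.ofLine h rfl rfl) else 1

variable {x₀}

theorem evp_congr {p q : Path x y} (h : p.Homotopic q) : evp x₀ p = evp x₀ q := by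
  have : ar p = ar q := Path.Homotopic.Quotient.eq.2 h
  simp only [evp, this]

theorem evp_trans (p : Path x y) (q : Path y z) : evp x₀ (p.trans q) = evp x₀ q * evp x₀ p := by
  by_cases h : Joined x₀ x
  · have e : ar (p.trans q) = ar p ≫ ar q := rfl
    simp only [evp, dif_pos h, dif_pos (h.trans ⟨p⟩), End.mul_def, e, Category.assoc,
      IsIso.inv_hom_id_assoc]
  · have h' : ¬Joined x₀ y := fun k => h (k.trans ⟨p.symm⟩)
    simp only [evp, dif_neg h, dif_neg h', mul_one]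

theorem evp_inj {p q : Path x₀ y} (h : evp x₀ p = evp x₀ q) : p.Homotopic q := by
  rw [evp, evp, dif_pos (Joined.refl x₀), dif_pos (Joined.refl x₀), cancel_epi, cancel_mono] at h
  exact Path.Homotopic.Quotient.eq.1 h

theorem ev_eq {γ : ℝ → X} (h : ContinuousOn γ (Icc 0 1)) (p : Path x y) (e : ∀ t : I, p t = γ t) :
    ev x₀ γ = evp x₀ p := by
  obtain rfl : x = γ 0 := p.source.symm.trans (e 0)
  obtain rfl : y = γ 1 := p.target.symm.trans (e 1)
  rw [ev, dif_pos h]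
  exact congrArg _ (Path.ext (funext fun t => (e t).symm))

theorem ev_congr {γ γ' : ℝ → X} (e : EqOn γ γ' (Icc 0 1)) : ev x₀ γ = ev x₀ γ' := by
  by_cases h : ContinuousOn γ' (Icc 0 1)
  · rw [ev_eq (h.congr e) (Path.ofLine h rfl rfl) fun t => (e t.2).symm, ev, dif_pos h]
  · rw [ev, ev, dif_neg h, dif_neg fun k => h (k.congr e.symm)]

variable {E : Type} [AddCommGroup E] [Module ℝ E] [TopologicalSpace E] [IsTopologicalAddGroup E]
  [ContinuousSMul ℝ E] {K : Set E} {f g : E → X} {a b c : E}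

/-- a curve in `K` -/
structure Cv (K : Set E) (c : ℝ → E) : Prop where
  ct : ContinuousOn c (Icc 0 1)
  mem : MapsTo c (Icc 0 1) K

omit [AddCommGroup E] [Module ℝ E] [IsTopologicalAddGroup E] [ContinuousSMul ℝ E] in
theorem Cv.ex {c : ℝ → E} (h : Cv K c) {u v : K} (h0 : c 0 = u) (h1 : c 1 = v) :
    ∃ p : Path u v, ∀ t : I, (p t : E) = c t :=
  ⟨⟨⟨fun t => ⟨c t, h.mem t.2⟩, h.ct.domRestrict.subtype_mk _⟩, Subtype.ext h0, Subtype.ext h1⟩,
    fun _ => rfl⟩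

theorem ev_tri (hK : Convex ℝ K) (hf : ContinuousOn f K) {c₁ c₂ c₃ : ℝ → E} (h₁ : Cv K c₁)
    (h₂ : Cv K c₂) (h₃ : Cv K c₃) (e₁ : c₂ 0 = c₁ 1) (e₂ : c₃ 0 = c₁ 0) (e₃ : c₃ 1 = c₂ 1) :
    ev x₀ (f ∘ c₃) = ev x₀ (f ∘ c₂) * ev x₀ (f ∘ c₁) := by
  have m0 : (0 : ℝ) ∈ Icc (0 : ℝ) 1 := left_mem_Icc.2 zero_le_one
  have m1 : (1 : ℝ) ∈ Icc (0 : ℝ) 1 := right_mem_Icc.2 zero_le_one
  obtain ⟨p₁, k₁⟩ := h₁.ex (u := ⟨_, h₁.mem m0⟩) (v := ⟨_, h₁.mem m1⟩) rfl rfl
  obtain ⟨p₂, k₂⟩ := h₂.ex (u := ⟨_, h₁.mem m1⟩) (v := ⟨_, h₂.mem m1⟩) e₁ rfl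
  obtain ⟨p₃, k₃⟩ := h₃.ex (u := ⟨_, h₁.mem m0⟩) (v := ⟨_, h₂.mem m1⟩) e₂ e₃
  have := hK.contractibleSpace ⟨_, h₁.mem m0⟩
  let F : C(K, X) := ⟨_, hf.domRestrict⟩
  rw [ev_eq (hf.comp h₁.ct h₁.mem) (p₁.map F.continuous) fun t => congrArg f (k₁ t),
    ev_eq (hf.comp h₂.ct h₂.mem) (p₂.map F.continuous) fun t => congrArg f (k₂ t),
    ev_eq (hf.comp h₃.ct h₃.mem) (p₃.map F.continuous) fun t => congrArg f (k₃ t), ← evp_trans,
    ← Path.map_trans]
  exact evp_congr ((SimplyConnectedSpace.paths_homotopic _ _).map F)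

/-- the segment -/
def sg (a b : E) (s : ℝ) : E := a + s • (b - a)

theorem cv_sg (hK : Convex ℝ K) (ha : a ∈ K) (hb : b ∈ K) : Cv K (sg a b) :=
  ⟨(continuous_const.add (continuous_id.smul continuous_const)).continuousOn,
    fun _ h => hK.add_smul_sub_mem ha hb h⟩

omit [TopologicalSpace E] [IsTopologicalAddGroup E] [ContinuousSMul ℝ E] in
@[simp] theorem sg_zero : sg a b 0 = a := by simp [sg]

omit [TopologicalSpace E] [IsTopologicalAddGroup E] [ContinuousSMul ℝ E] in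
@[simp] theorem sg_one : sg a b 1 = b := by simp [sg]

variable (x₀) in
/-- the class of the image of a segment -/
def tr (f : E → X) (a b : E) : Gp x₀ := ev x₀ (f ∘ sg a b)

theorem tr_mul (hK : Convex ℝ K) (hf : ContinuousOn f K) (ha : a ∈ K) (hb : b ∈ K) (hc : c ∈ K) :
    tr x₀ f a c = tr x₀ f b c * tr x₀ f a b :=
  ev_tri hK hf (cv_sg hK ha hb) (cv_sg hK hb hc) (cv_sg hK ha hc) (by simp) (by simp) (by simp)

theorem ev_const {γ : ℝ → X} (h : ∀ s ∈ Icc (0 : ℝ) 1, γ s = x) : ev x₀ γ = 1 := by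
  have := ev_tri (x₀ := x₀) (E := ℝ) (f := fun _ => x) convex_univ continuousOn_const
    (cv_sg convex_univ (mem_univ 0) (mem_univ 0)) (cv_sg convex_univ (mem_univ 0) (mem_univ 0))
    (cv_sg convex_univ (mem_univ 0) (mem_univ 0)) (by simp) rfl rfl
  exact (ev_congr (γ' := (fun _ => x) ∘ sg (0 : ℝ) 0) h).trans (left_eq_mul.1 this)

theorem tr_self (f : E → X) (a : E) : tr x₀ f a a = 1 :=
  ev_const (x := f a) fun _ _ => by simp [sg]

theorem ev_cv (hK : Convex ℝ K) (hf : ContinuousOn f K) {c : ℝ → E} (h : Cv K c) :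
    ev x₀ (f ∘ c) = tr x₀ f (c 0) (c 1) := by
  have m0 := h.mem (left_mem_Icc.2 zero_le_one)
  have := ev_tri (x₀ := x₀) hK hf (cv_sg hK m0 m0) h
    (cv_sg hK m0 (h.mem (right_mem_Icc.2 zero_le_one))) (by simp) (by simp) (by simp)
  rw [tr, this, ← tr, tr_self, mul_one]

theorem tr_symm (hK : Convex ℝ K) (hf : ContinuousOn f K) (ha : a ∈ K) (hb : b ∈ K) :
    tr x₀ f b a = (tr x₀ f a b)⁻¹ :=
  eq_inv_of_mul_eq_one_left ((tr_mul hK hf ha hb ha).symm.trans (tr_self f a))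

/-- the two maps give the same class of paths from `a` to `b` -/
def Sm (x₀ : X) (f g : E → X) (a b : E) : Prop := tr x₀ f a b = tr x₀ g a b

theorem Sm.trans (hK : Convex ℝ K) (hf : ContinuousOn f K) (hg : ContinuousOn g K) (ha : a ∈ K)
    (hb : b ∈ K) (hc : c ∈ K) (h : Sm x₀ f g a b) (h' : Sm x₀ f g b c) : Sm x₀ f g a c := by
  rw [Sm, tr_mul hK hf ha hb hc, tr_mul hK hg ha hb hc, h, h']

theorem Sm.symm (hK : Convex ℝ K) (hf : ContinuousOn f K) (hg : ContinuousOn g K) (ha : a ∈ K)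
    (hb : b ∈ K) (h : Sm x₀ f g a b) : Sm x₀ f g b a := by
  rw [Sm, tr_symm hK hf ha hb, tr_symm hK hg ha hb, h]

omit [TopologicalSpace E] [IsTopologicalAddGroup E] [ContinuousSMul ℝ E] in
theorem sm_of (h : ∀ s ∈ Icc (0 : ℝ) 1, f (sg a b s) = g (sg a b s)) : Sm x₀ f g a b := ev_congr h

/-- a homotopy with fixed end points -/
theorem ev_homotopy {H : ℝ × ℝ → X} (hH : ContinuousOn H (Icc 0 1 ×ˢ Icc 0 1))
    (h0 : ∀ u ∈ Icc (0 : ℝ) 1, H (0, u) = x) (h1 : ∀ u ∈ Icc (0 : ℝ) 1, H (1, u) = y) :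
    ev x₀ (fun s => H (s, 0)) = ev x₀ fun s => H (s, 1) := by
  have m0 : (0 : ℝ) ∈ Icc (0 : ℝ) 1 := left_mem_Icc.2 zero_le_one
  have m1 : (1 : ℝ) ∈ Icc (0 : ℝ) 1 := right_mem_Icc.2 zero_le_one
  have k : Convex ℝ (Icc (0 : ℝ) 1 ×ˢ Icc (0 : ℝ) 1) := (convex_Icc _ _).prod (convex_Icc _ _)
  have e1 := tr_mul (x₀ := x₀) k hH (mk_mem_prod m0 m0) (mk_mem_prod m1 m0) (mk_mem_prod m1 m1)
  have e2 := tr_mul (x₀ := x₀) k hH (mk_mem_prod m0 m0) (mk_mem_prod m0 m1) (mk_mem_prod m1 m1)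
  rw [show tr x₀ H (1, 0) (1, 1) = 1 from ev_const fun s hs => by simpa [sg] using h1 s hs,
    one_mul] at e1
  rw [show tr x₀ H (0, 0) (0, 1) = 1 from ev_const fun s hs => by simpa [sg] using h0 s hs,
    mul_one, e1] at e2
  exact (ev_congr fun s _ => by simp [sg]).trans (e2.trans (ev_congr fun s _ => by simp [sg]))

end Vale.Agent.P300LQ
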